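import Mathlib.MeasureTheory.Covering.DensityTheorem
import Mathlib.MeasureTheory.Measure.Haar.NormedSpace
import Mathlib.MeasureTheory.Measure.Lebesgue.EqHaar
import Mathlib.MeasureTheory.Integral.IntervalIntegral.Basic
import Mathlib.MeasureTheory.Integral.Average

/-!
# P284, theorem TAN (helper287): row R4 (Lebesgue points of the gradient: differentiability in `L¹`)
-/

open scoped Topology ENNReal
open Filter Set Metric MeasureTheory Module

noncomputable section

namespace Vale.Agent.P284.H287.TAN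

variable {E : Type*} [NormedAddCommGroup E] [NormedSpace ℝ E] [FiniteDimensional ℝ E]
  [MeasurableSpace E] [BorelSpace E] (μ : Measure E) [μ.IsAddHaarMeasure]

theorem scale {F : E → ℝ≥0∞} (hF : Measurable F) (x : E) {r s : ℝ} (hs : 0 < s) :
    ∫⁻ h in ball (0 : E) r, F (x + s • h) ∂μ =
      ENNReal.ofReal ((s ^ finrank ℝ E)⁻¹) * ∫⁻ y in ball x (s * r), F y ∂μ := by
  set H : E → ℝ≥0∞ := fun k => (ball x (s * r)).indicator F (x + k) with hH
  have hHm : Measurable H := (hF.indicator measurableSet_ball).comp (measurable_const_add x)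
  have h1 : ∫⁻ h in ball (0 : E) r, F (x + s • h) ∂μ = ∫⁻ h, H (s • h) ∂μ := by
    rw [← lintegral_indicator measurableSet_ball]
    refine lintegral_congr fun h => ?_
    have e : h ∈ ball (0 : E) r ↔ x + s • h ∈ ball x (s * r) := by
      rw [mem_ball_zero_iff, mem_ball, dist_eq_norm, add_sub_cancel_left, norm_smul,
        Real.norm_eq_abs, abs_of_pos hs, mul_lt_mul_iff_right₀ hs]
    by_cases hh : h ∈ ball (0 : E) r
    · rw [indicator_of_mem hh, hH]
      simp only
      rw [indicator_of_mem (e.1 hh)]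
    · rw [indicator_of_notMem hh, hH]
      simp only
      rw [indicator_of_notMem (fun h' => hh (e.2 h'))]
  have h2 : ∫⁻ h, H (s • h) ∂μ = ∫⁻ k, H k ∂(Measure.map (fun h : E => s • h) μ) :=
    (lintegral_map hHm (measurable_const_smul s)).symm
  have h3 : (Measure.map (fun h : E => s • h) μ) =
      ENNReal.ofReal |(s ^ finrank ℝ E)⁻¹| • μ := Measure.map_addHaar_smul μ hs.ne'
  have h4 : ∫⁻ k, H k ∂μ = ∫⁻ y in ball x (s * r), F y ∂μ := by
    rw [← lintegral_indicator measurableSet_ball]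
    exact lintegral_add_left_eq_self (fun y => (ball x (s * r)).indicator F y) x
  rw [h1, h2, h3, lintegral_smul_measure, h4, abs_of_nonneg (by positivity), smul_eq_mul]

theorem scale_ball (x : E) {r s : ℝ} (hs : 0 < s) :
    μ (ball (0 : E) r) = ENNReal.ofReal ((s ^ finrank ℝ E)⁻¹) * μ (ball x (s * r)) := by
  have h := scale μ (F := fun _ => 1) measurable_const x (r := r) hs
  simpa using h

/-- the estimate at one point -/
theorem core4 {u : E → ℝ} {G : E → E →L[ℝ] ℝ} (hGm : StronglyMeasurable G) {x : E} {δ ε : ℝ}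
    (hid : ∀ᵐ h ∂μ, ‖h‖ < δ → u (x + h) - u x = ∫ s in (0 : ℝ)..1, G (x + s • h) h)
    (hL : ∀ ρ, 0 < ρ → ρ < δ → ∫⁻ y in ball x ρ, ‖G y - G x‖ₑ ∂μ ≤
      ENNReal.ofReal ε * μ (ball x ρ)) {r : ℝ} (hr : 0 < r) (hrδ : r < δ) :
    ∫⁻ h in ball (0 : E) r, ‖u (x + h) - u x - G x h‖ₑ ∂μ ≤
      ENNReal.ofReal r * (ENNReal.ofReal ε * μ (ball (0 : E) r)) := by
  have : ProperSpace E := FiniteDimensional.proper_real E
  set F : E → ℝ≥0∞ := fun y => ‖G y - G x‖ₑ with hF
  have hFm : Measurable F := (hGm.sub stronglyMeasurable_const).enorm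
  -- pointwise
  have h1 : ∀ᵐ h ∂(μ.restrict (ball (0 : E) r)), ‖u (x + h) - u x - G x h‖ₑ ≤
      ENNReal.ofReal r * ∫⁻ s in Ioc (0 : ℝ) 1, F (x + s • h) := by
    filter_upwards [ae_restrict_of_ae hid, ae_restrict_mem measurableSet_ball] with h hh hb
    have hn : ‖h‖ < r := mem_ball_zero_iff.1 hb
    rw [hh (hn.trans hrδ)]
    have hline : Measurable fun s : ℝ => x + s • h := by fun_prop
    have hsm : StronglyMeasurable fun s : ℝ => G (x + s • h) h - G x h := by
      have h5 : StronglyMeasurable fun s : ℝ => G (x + s • h) := hGm.comp_measurable hline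
      exact (((ContinuousLinearMap.apply ℝ ℝ h).continuous.comp_stronglyMeasurable h5)).sub
        stronglyMeasurable_const
    have hle : ∫⁻ s in Ioc (0 : ℝ) 1, ‖G (x + s • h) h - G x h‖ₑ ≤
        ENNReal.ofReal r * ∫⁻ s in Ioc (0 : ℝ) 1, F (x + s • h) := by
      rw [← lintegral_const_mul' _ _ ENNReal.ofReal_ne_top]
      refine lintegral_mono fun s => ?_
      have h6 : G (x + s • h) h - G x h = (G (x + s • h) - G x) h := rfl
      rw [h6, mul_comm]
      calc ‖(G (x + s • h) - G x) h‖ₑ ≤ ‖G (x + s • h) - G x‖ₑ * ‖h‖ₑ :=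
            ContinuousLinearMap.le_opENorm _ _
        _ ≤ F (x + s • h) * ENNReal.ofReal r := by
            refine mul_le_mul_right ?_ _
            rw [← ofReal_norm]
            exact ENNReal.ofReal_le_ofReal hn.le
    by_cases hfin : ∫⁻ s in Ioc (0 : ℝ) 1, ‖G (x + s • h) h - G x h‖ₑ = ∞
    · rw [hfin] at hle
      exact le_trans le_top hle
    · have hi : IntegrableOn (fun s : ℝ => G (x + s • h) h - G x h) (Ioc (0 : ℝ) 1) :=
        ⟨hsm.aestronglyMeasurable, lt_top_iff_ne_top.2 hfin⟩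
      have hi2 : IntegrableOn (fun s : ℝ => G (x + s • h) h) (Ioc (0 : ℝ) 1) := by
        have h7 : IntegrableOn (fun _ : ℝ => G x h) (Ioc (0 : ℝ) 1) := by
          refine integrableOn_const (by simp)
        refine (hi.add h7).congr (Eventually.of_forall fun s => ?_)
        simp
      have h8 : (∫ s in (0 : ℝ)..1, G (x + s • h) h) - G x h =
          ∫ s in Ioc (0 : ℝ) 1, (G (x + s • h) h - G x h) := by
        rw [integral_sub hi2 (integrableOn_const (by simp)),
          intervalIntegral.integral_of_le zero_le_one]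
        simp
      rw [h8]
      exact (enorm_integral_le_lintegral_enorm _).trans hle
  -- Tonelli
  have hmeas : Measurable (Function.uncurry fun (h : E) (s : ℝ) => F (x + s • h)) := by
    refine hFm.comp ?_
    exact (continuous_const.add (continuous_snd.smul continuous_fst)).measurable
  calc ∫⁻ h in ball (0 : E) r, ‖u (x + h) - u x - G x h‖ₑ ∂μ
      ≤ ∫⁻ h in ball (0 : E) r, (ENNReal.ofReal r * ∫⁻ s in Ioc (0 : ℝ) 1, F (x + s • h)) ∂μ :=
        lintegral_mono_ae h1
    _ = ENNReal.ofReal r * ∫⁻ h in ball (0 : E) r, (∫⁻ s in Ioc (0 : ℝ) 1, F (x + s • h)) ∂μ := by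
        rw [lintegral_const_mul' _ _ ENNReal.ofReal_ne_top]
    _ = ENNReal.ofReal r * ∫⁻ s in Ioc (0 : ℝ) 1, (∫⁻ h in ball (0 : E) r, F (x + s • h) ∂μ) := by
        rw [lintegral_lintegral_swap hmeas.aemeasurable]
    _ ≤ ENNReal.ofReal r * ∫⁻ _ in Ioc (0 : ℝ) 1, (ENNReal.ofReal ε * μ (ball (0 : E) r)) := by
        refine mul_le_mul_right ?_ _
        refine setLIntegral_mono measurable_const fun s hs => ?_
        rw [scale μ hFm x hs.1, scale_ball μ x (r := r) hs.1]
        have h9 := hL (s * r) (mul_pos hs.1 hr) (lt_of_le_of_lt (by nlinarith [hs.2]) hrδ)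
        calc ENNReal.ofReal ((s ^ finrank ℝ E)⁻¹) * ∫⁻ y in ball x (s * r), F y ∂μ
            ≤ ENNReal.ofReal ((s ^ finrank ℝ E)⁻¹) *
              (ENNReal.ofReal ε * μ (ball x (s * r))) := mul_le_mul_right h9 _
          _ = ENNReal.ofReal ε * (ENNReal.ofReal ((s ^ finrank ℝ E)⁻¹) *
              μ (ball x (s * r))) := by ring
    _ = ENNReal.ofReal r * (ENNReal.ofReal ε * μ (ball (0 : E) r)) := by
        rw [setLIntegral_const]
        simp

/-- **R4** -/
theorem r4 {S : Set E} (hS : IsOpen S) {u : E → ℝ} {G : E → E →L[ℝ] ℝ}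
    (hGm : StronglyMeasurable G) (hG : IntegrableOn G S μ)
    (hid : ∀ᵐ x ∂μ, x ∈ S → ∀ᵐ h ∂μ, x + h ∈ S →
      u (x + h) - u x = ∫ s in (0 : ℝ)..1, G (x + s • h) h) :
    ∀ᵐ x ∂μ, x ∈ S →
      Tendsto (fun r : ℝ => r⁻¹ * ⨍ h in ball (0 : E) r, |u (x + h) - u x - G x h| ∂μ)
        (𝓝[>] 0) (𝓝 0) := by
  have : ProperSpace E := FiniteDimensional.proper_real E
  have hGi : Integrable (S.indicator G) μ :=
    (integrable_indicator_iff (f := G) (μ := μ) hS.measurableSet).2 hG
  have hloc : LocallyIntegrable (S.indicator G) μ := hGi.locallyIntegrable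
  filter_upwards [hid, IsUnifLocDoublingMeasure.ae_tendsto_average_norm_sub μ hloc 1]
    with x hx hLeb hxS
  have hx' := hx hxS
  have hLeb' : Tendsto (fun r : ℝ => ⨍ y in closedBall x r,
      ‖S.indicator G y - S.indicator G x‖ ∂μ) (𝓝[>] 0) (𝓝 0) := by
    refine hLeb (fun _ => x) (fun r => r) tendsto_id ?_
    filter_upwards [self_mem_nhdsWithin] with r hr
    rw [one_mul]
    exact mem_closedBall_self (le_of_lt hr)
  obtain ⟨δ₀, hδ₀, hball⟩ := Metric.isOpen_iff.1 hS x hxS
  rw [Metric.tendsto_nhdsWithin_nhds]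
  intro ε hε
  rw [Metric.tendsto_nhdsWithin_nhds] at hLeb'
  obtain ⟨δ₁, hδ₁, hL1⟩ := hLeb' (ε / 2) (by positivity)
  set δ := min δ₀ δ₁ with hδ
  have hδp : 0 < δ := lt_min hδ₀ hδ₁
  refine ⟨δ, hδp, fun r hr hrd => ?_⟩
  have hr0 : 0 < r := hr
  rw [Real.dist_0_eq_abs, abs_of_pos hr0] at hrd
  have key := core4 μ (u := u) hGm (x := x) (δ := δ) (ε := ε / 2)
    (by
      filter_upwards [hx'] with h hh hhn
      exact hh (hball (by
        rw [mem_ball, dist_eq_norm, add_sub_cancel_left]
        exact hhn.trans_le (min_le_left _ _))))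
    (by
      intro ρ hρ hρδ
      have h1 := hL1 (x := ρ) hρ (by
        rw [Real.dist_0_eq_abs, abs_of_pos hρ]; exact hρδ.trans_le (min_le_right _ _))
      have hfinB : μ (closedBall x ρ) ≠ ∞ := measure_closedBall_lt_top.ne
      have hposB : 0 < μ (closedBall x ρ) := measure_closedBall_pos μ x hρ
      have hint : IntegrableOn (fun y => ‖S.indicator G y - S.indicator G x‖) (closedBall x ρ) μ := by
        refine Integrable.norm ?_
        exact hGi.integrableOn.sub (integrableOn_const hfinB)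
      rw [Real.dist_0_eq_abs, abs_of_nonneg (by
        rw [setAverage_eq]
        refine smul_nonneg (by positivity) ?_
        exact integral_nonneg fun _ => norm_nonneg _), setAverage_eq, smul_eq_mul,
        inv_mul_lt_iff₀ (by
          rw [measureReal_def]
          exact ENNReal.toReal_pos hposB.ne' hfinB)] at h1
      have h2 : ∫⁻ y in ball x ρ, ‖G y - G x‖ₑ ∂μ ≤
          ∫⁻ y in closedBall x ρ, ‖S.indicator G y - S.indicator G x‖ₑ ∂μ := by
        have h3 : ∫⁻ y in ball x ρ, ‖G y - G x‖ₑ ∂μ =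
            ∫⁻ y in ball x ρ, ‖S.indicator G y - S.indicator G x‖ₑ ∂μ := by
          refine setLIntegral_congr_fun measurableSet_ball fun y hy => ?_
          have hyS : y ∈ S := hball (ball_subset_ball (hρδ.le.trans (min_le_left _ _)) hy)
          simp only [indicator_of_mem hyS, indicator_of_mem hxS]
        rw [h3]
        exact lintegral_mono_set ball_subset_closedBall
      refine h2.trans ?_
      have h4 : ∫⁻ y in closedBall x ρ, ‖S.indicator G y - S.indicator G x‖ₑ ∂μ =
          ENNReal.ofReal (∫ y in closedBall x ρ, ‖S.indicator G y - S.indicator G x‖ ∂μ) := by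
        rw [ofReal_integral_eq_lintegral_ofReal hint
          (Eventually.of_forall fun _ => norm_nonneg _)]
        refine lintegral_congr fun y => ?_
        rw [ofReal_norm]
      rw [h4]
      have h5 : μ (ball x ρ) = μ (closedBall x ρ) := by
        rw [Measure.addHaar_closedBall μ x hρ.le, Measure.addHaar_ball_of_pos μ x hρ]
      rw [h5]
      calc ENNReal.ofReal (∫ y in closedBall x ρ, ‖S.indicator G y - S.indicator G x‖ ∂μ)
          ≤ ENNReal.ofReal (μ.real (closedBall x ρ) * (ε / 2)) :=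
            ENNReal.ofReal_le_ofReal h1.le
        _ = ENNReal.ofReal (ε / 2) * μ (closedBall x ρ) := by
            rw [mul_comm, ENNReal.ofReal_mul (by positivity), ofReal_measureReal hfinB])
    hr0 hrd
  have hfin0 : μ (ball (0 : E) r) ≠ ∞ := measure_ball_lt_top.ne
  have hpos0 : 0 < μ (ball (0 : E) r) := measure_ball_pos μ 0 hr0
  have hV : 0 < μ.real (ball (0 : E) r) := by
    rw [measureReal_def]; exact ENNReal.toReal_pos hpos0.ne' hfin0
  have hI : ∫ h in ball (0 : E) r, |u (x + h) - u x - G x h| ∂μ ≤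
      r * (ε / 2) * μ.real (ball (0 : E) r) := by
    have h6 := norm_integral_le_lintegral_norm (μ := μ.restrict (ball (0 : E) r))
      (fun h => |u (x + h) - u x - G x h|)
    have h7 : (∫⁻ h in ball (0 : E) r, ENNReal.ofReal ‖|u (x + h) - u x - G x h|‖ ∂μ) =
        ∫⁻ h in ball (0 : E) r, ‖u (x + h) - u x - G x h‖ₑ ∂μ := by
      refine lintegral_congr fun h => ?_
      rw [norm_abs_eq_norm, ofReal_norm]
    rw [h7] at h6
    refine (le_abs_self _).trans ?_
    rw [← Real.norm_eq_abs]
    refine h6.trans ?_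
    refine (ENNReal.toReal_mono (by finiteness) key).trans ?_
    rw [ENNReal.toReal_mul, ENNReal.toReal_mul, ENNReal.toReal_ofReal hr0.le,
      ENNReal.toReal_ofReal (by positivity), measureReal_def]
    exact le_of_eq (by ring)
  have hnn : 0 ≤ ∫ h in ball (0 : E) r, |u (x + h) - u x - G x h| ∂μ :=
    integral_nonneg fun _ => abs_nonneg _
  rw [Real.dist_0_eq_abs, setAverage_eq, smul_eq_mul, abs_of_nonneg (by positivity)]
  have h8 : r⁻¹ * ((μ.real (ball (0 : E) r))⁻¹ *
      ∫ h in ball (0 : E) r, |u (x + h) - u x - G x h| ∂μ) ≤ ε / 2 := by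
    rw [inv_mul_le_iff₀ hr0, inv_mul_le_iff₀ hV]
    linarith
  linarith

end Vale.Agent.P284.H287.TAN
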